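import Vale.Agent.P170.H849.Defs

/-!
# Transfer of the frozen literal moment to proper clauses
-/

namespace Vale.Agent.P170.H849

open Finset Filter Topology Vale.Agent.P170

/-- `a` satisfies all clauses of the set `T` -/
def SatT {k n : ℕ} (a : Fin n → Bool) (T : Finset (PClause k n)) : Prop :=
  ∀ C ∈ T, ∃ l ∈ C.1, a l.1 = l.2

open Classical in
/-- backbone of a set of clauses -/
noncomputable def bbT {k n : ℕ} (T : Finset (PClause k n)) : Finset (Fin n) :=
  univ.filter fun x => ∀ a b : Fin n → Bool, SatT a T → SatT b T → a x = b x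

/-- size of the backbone on satisfiability -/
noncomputable def G {k n : ℕ} (T : Finset (PClause k n)) : ℝ := ind (SatP T) * ((bbT T).card : ℝ)

theorem G_nonneg {k n : ℕ} (T : Finset (PClause k n)) : 0 ≤ G T :=
  mul_nonneg (ind_nonneg _) (Nat.cast_nonneg _)

open Classical in
theorem satT_image {k n m : ℕ} (F : Fin m → PClause k n) (a : Fin n → Bool) :
    SatT a (univ.image F) ↔ Sat a F := by
  unfold SatT Sat
  constructor
  · intro h i
    exact h (F i) (mem_image_of_mem F (mem_univ i))
  · intro h C hC
    obtain ⟨i, _, rfl⟩ := mem_image.mp hC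
    exact h i

open Classical in
theorem bbT_image {k n m : ℕ} (F : Fin m → PClause k n) : bbT (univ.image F) = backbone F := by
  unfold bbT backbone
  ext x
  simp only [mem_filter, mem_univ, true_and, satT_image]

open Classical in
theorem G_image {k n m : ℕ} (F : Fin m → PClause k n) :
    G (univ.image F) = if Satisfiable F then ((backbone F).card : ℝ) else 0 := by
  unfold G
  rw [bbT_image, ind_congr (SatP_image F)]
  unfold ind
  split_ifs
  · rw [one_mul]
  · rw [zero_mul]

theorem satT_push {j n : ℕ} {S : Finset (Cl j (Fin n))} {a : Fin n → Bool}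
    (h : ∀ e ∈ S, ¬ Viol a e) : SatT a (push (toP j n) S) := by
  intro C hC
  obtain ⟨e, he, heC⟩ := mem_push.mp hC
  have h1 := h e he
  rcases e with e | e
  · rw [toP_inl_eq_some] at heC
    unfold Viol at h1
    push Not at h1
    obtain ⟨i, hi⟩ := h1
    exact ⟨e i, heC ▸ Finset.mem_image_of_mem e (Finset.mem_univ i), hi⟩
  · simp [toP] at heC

theorem bb_card_le {j n : ℕ} {S : Finset (Cl j (Fin n))} (h : ¬ Unsat S) :
    (bbT (push (toP j n) S)).card ≤ (Fz S).card := by
  classical
  unfold Unsat UnsatOn at h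
  push Not at h
  obtain ⟨a₀, _, ha₀⟩ := h
  have h1 : bbT (push (toP j n) S) ⊆ (Fz S).image Prod.fst := by
    intro x hx
    rw [mem_image]
    refine ⟨(x, !(a₀ x)), ?_, rfl⟩
    rw [mem_Fz]
    intro a ha
    by_contra hcon
    push Not at hcon
    unfold bbT at hx
    rw [mem_filter] at hx
    have h2 := hx.2 a a₀ (satT_push hcon) (satT_push ha₀)
    simp only at ha
    rw [h2] at ha
    cases h3 : a₀ x <;> simp [h3] at ha
  exact (card_le_card h1).trans card_image_le

theorem G_push_le {j n : ℕ} {S : Finset (Cl j (Fin n))} (hS : ∀ e ∈ S, toP j n e ≠ none) :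
    G (push (toP j n) S) ≤ ind (¬ Unsat S) * ((Fz S).card : ℝ) ^ 1 := by
  unfold G
  rw [pow_one]
  by_cases h : SatP (push (toP j n) S)
  · have h1 := not_Unsat_of_SatP hS h
    rw [ind_true h, ind_true h1, one_mul, one_mul]
    exact_mod_cast bb_card_le h1
  · rw [ind_false h, zero_mul]
    exact mul_nonneg (ind_nonneg _) (Nat.cast_nonneg _)

/-- mean backbone size of the proper part, in the rate model -/
noncomputable def Wp (j n : ℕ) (r : ℝ) : ℝ :=
  Ex (rate j (Fin n) r 0) (fun S => G (push (toP j n) S))

open Classical in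
theorem Wp_le (j n : ℕ) {r : ℝ} (hr : 0 ≤ r) :
    Real.exp (-(r * improper j n)) * Wp j n r ≤ FzMom j (Fin n) 1 r 0 := by
  rw [← sum_rate_improper, ← Ex_zeta]
  unfold Wp FzMom
  rw [← Ex_mul_of_indep (rate j (Fin n) r 0)
    (B := (Finset.univ.filter (fun e : Cl j (Fin n) => toP j n e ≠ none))ᶜ)
    (C := Finset.univ.filter (fun e : Cl j (Fin n) => toP j n e ≠ none))]
  · apply Ex_mono (rate_nonneg hr le_rfl)
    intro S
    unfold zeta
    split_ifs with h
    · rw [one_mul]
      apply G_push_le
      intro e he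
      exact (Finset.mem_filter.mp (h he)).2
    · rw [zero_mul]
      exact mul_nonneg (ind_nonneg _) (by positivity)
  · exact zeta_depOn _
  · intro S S' h
    have h1 : push (toP j n) S = push (toP j n) S' := by
      have h2 : ∀ S : Finset (Cl j (Fin n)), push (toP j n) S
          = push (toP j n) (S ∩ Finset.univ.filter (fun e : Cl j (Fin n) => toP j n e ≠ none)) := by
        intro S
        ext C
        rw [mem_push, mem_push]
        constructor
        · rintro ⟨e, he, heC⟩
          refine ⟨e, Finset.mem_inter.mpr ⟨he, Finset.mem_filter.mpr ⟨Finset.mem_univ _, ?_⟩⟩, heC⟩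
          rw [heC]
          exact Option.some_ne_none C
        · rintro ⟨e, he, heC⟩
          exact ⟨e, (Finset.mem_inter.mp he).1, heC⟩
      rw [h2 S, h2 S', h]
    show G (push (toP j n) S) = G (push (toP j n) S')
    rw [h1]
  · exact disjoint_compl_left

theorem Wp_nonneg (j n : ℕ) {r : ℝ} (hr : 0 ≤ r) : 0 ≤ Wp j n r :=
  Ex_nonneg (rate_nonneg hr le_rfl) fun _ => G_nonneg _

theorem continuous_Wp (j n : ℕ) : Continuous (Wp j n) := by
  unfold Wp
  apply continuous_Ex
  intro e
  rcases e with e | e
  · exact continuous_id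
  · exact continuous_const

theorem Wp_eq (j n : ℕ) (r : ℝ) :
    Wp j n r = Ex (fun _ : PClause (j + 1) n => ((j + 1).factorial : ℝ) * r) (fun T => G T) := by
  unfold Wp
  rw [Ex_push (toP j n) (rate j (Fin n) r 0) (fun T => G T)]
  congr 1
  funext C
  convert sum_fibre j n r C

theorem sum_G_image (k n m : ℕ) :
    ∑ y : Fin m → PClause k n, G (Finset.univ.image y)
      = (Fintype.card (PClause k n) : ℝ) ^ m * backboneMean k n m := by
  classical
  have h3 : (Fintype.card (Fin m → PClause k n) : ℝ) = (Fintype.card (PClause k n) : ℝ) ^ m := by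
    rw [Fintype.card_fun, Fintype.card_fin]
    push_cast
    rfl
  have h1 : ∑ y : Fin m → PClause k n, G (Finset.univ.image y)
      = ∑ F : Fin m → PClause k n, if Satisfiable F then ((backbone F).card : ℝ) else 0 := by
    refine Finset.sum_congr rfl fun y _ => ?_
    convert G_image y
  unfold backboneMean
  rw [h1, ← h3]
  by_cases h5 : (Fintype.card (Fin m → PClause k n) : ℝ) = 0
  · have h6 : IsEmpty (Fin m → PClause k n) := Fintype.card_eq_zero_iff.mp (by exact_mod_cast h5)
    simp
  · field_simp

theorem hasSum_Wp (j n : ℕ) (r : ℝ) :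
    HasSum (fun m : ℕ => poi (mu j n r) m * backboneMean (j + 1) n m) (Wp j n r) := by
  rw [Wp_eq]
  have h := hasSum_Ex_const (((j + 1).factorial : ℝ) * r)
    (fun T : Finset (PClause (j + 1) n) => G T)
  have h1 : ((j + 1).factorial : ℝ) * r * Fintype.card (PClause (j + 1) n) = mu j n r := by
    unfold mu
    have h2 : (Fintype.card (PClause (j + 1) n) : ℝ) * ((j + 1).factorial : ℝ)
      = n.descFactorial (j + 1) * 2 ^ (j + 1) := by exact_mod_cast card_PClause_mul j n
    rw [← h2]
    ring
  have h3 : (fun m : ℕ => Real.exp (-(((j + 1).factorial : ℝ) * r *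
      Fintype.card (PClause (j + 1) n))) * ((((j + 1).factorial : ℝ) * r) ^ m / (m.factorial : ℝ)) *
      ∑ y : Fin m → PClause (j + 1) n, G (Finset.univ.image y))
      = fun m : ℕ => poi (mu j n r) m * backboneMean (j + 1) n m := by
    funext m
    have h4 := sum_G_image (j + 1) n m
    rw [h4, ← h1]
    unfold poi
    rw [mul_pow (((j + 1).factorial : ℝ) * r)]
    ring
  rw [← h3]
  exact h

end Vale.Agent.P170.H849
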