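import Vale.Agent.P170.H849.A

/-!
# The sum over the number of clauses
-/

namespace Vale.Agent.P170.H849

open Finset Filter Topology MeasureTheory Vale.Agent.P170

theorem hasDerivAt_poi_zero (μ : ℝ) : HasDerivAt (fun μ => poi μ 0) (-poi μ 0) μ := by
  unfold poi
  have h := (hasDerivAt_neg μ).exp
  simpa using h

theorem hasDerivAt_poi_succ (m : ℕ) (μ : ℝ) :
    HasDerivAt (fun μ => poi μ (m + 1)) (poi μ m - poi μ (m + 1)) μ := by
  unfold poi
  have h := ((hasDerivAt_neg μ).exp).mul (((hasDerivAt_pow (m + 1) μ)).div_const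
    ((m + 1).factorial : ℝ))
  refine h.congr_deriv ?_
  rw [Nat.factorial_succ]
  have h1 : ((m.factorial : ℕ) : ℝ) ≠ 0 := by exact_mod_cast m.factorial_ne_zero
  have h2 : ((m : ℝ) + 1) ≠ 0 := by positivity
  push_cast
  field_simp
  ring

theorem hasDerivAt_cdf (m : ℕ) (μ : ℝ) :
    HasDerivAt (fun μ => ∑ i ∈ range (m + 1), poi μ i) (-poi μ m) μ := by
  induction m with
  | zero => simpa using hasDerivAt_poi_zero μ
  | succ m ih =>
    have h := ih.add (hasDerivAt_poi_succ m μ)
    have h1 : (fun μ => ∑ i ∈ range (m + 1 + 1), poi μ i)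
        = (fun μ => ∑ i ∈ range (m + 1), poi μ i) + fun μ => poi μ (m + 1) := by
      funext μ
      rw [sum_range_succ]
      rfl
    rw [h1]
    exact h.congr_deriv (by ring)

theorem continuous_poi (m : ℕ) : Continuous fun μ => poi μ m := by
  unfold poi
  fun_prop

theorem poi_zero_left (i : ℕ) : poi 0 i = if i = 0 then 1 else 0 := by
  unfold poi
  rcases i with _ | i
  · simp
  · simp

theorem integral_poi (m : ℕ) (L : ℝ) :
    ∫ μ in (0:ℝ)..L, poi μ m = 1 - ∑ i ∈ range (m + 1), poi L i := by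
  have h := intervalIntegral.integral_eq_sub_of_hasDerivAt
    (f := fun μ => -∑ i ∈ range (m + 1), poi μ i) (f' := fun μ => poi μ m) (a := 0) (b := L)
    (fun x _ => (hasDerivAt_cdf m x).neg.congr_deriv (by ring))
    ((continuous_poi m).intervalIntegrable _ _)
  rw [h]
  simp only [poi_zero_left]
  simp
  ring

/-- number of proper tuples -/
noncomputable def D (j n : ℕ) : ℝ := n.descFactorial (j + 1) * 2 ^ (j + 1)

theorem D_pos {j n : ℕ} (hn : j + 1 ≤ n) : 0 < D j n := by
  unfold D
  have : 0 < n.descFactorial (j + 1) := Nat.descFactorial_pos.mpr hn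
  positivity

theorem D_le (j n : ℕ) : D j n ≤ (2 * n) ^ (j + 1) := by
  unfold D
  rw [mul_pow, mul_comm]
  exact mul_le_mul_of_nonneg_left (descFactorial_le j n) (by positivity)

theorem integral_poi_mu (j n m : ℕ) (hn : j + 1 ≤ n) (R : ℝ) :
    ∫ r in (0:ℝ)..R, poi (mu j n r) m
      = (1 - ∑ i ∈ range (m + 1), poi (mu j n R) i) / D j n := by
  have hD := (D_pos hn).ne'
  have h1 : (fun r => poi (mu j n r) m) = fun r => (fun μ => poi μ m) (r * D j n) := rfl
  rw [h1, intervalIntegral.integral_comp_mul_right (fun μ => poi μ m) hD, zero_mul,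
    integral_poi, smul_eq_mul, inv_mul_eq_div]
  rfl

/-- the main inequality in integrated form -/
theorem sum_bb_mul_le (j n M : ℕ) (hn : j + 1 ≤ n) {R : ℝ} (hR : 0 ≤ R) :
    ∑ m ∈ range M, backboneMean (j + 1) n m *
      (1 - ∑ i ∈ range (m + 1), poi (mu j n R) i) ≤ D j n * ∫ r in (0:ℝ)..R, Wp j n r := by
  have hD := D_pos hn
  have hcont : ∀ m, Continuous (fun r => poi (mu j n r) m * backboneMean (j + 1) n m) := by
    intro m
    have : Continuous fun r => poi (mu j n r) m := by
      unfold mu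
      exact (continuous_poi m).comp (by fun_prop)
    exact this.mul continuous_const
  have hint : ∀ m, IntervalIntegrable (fun r => poi (mu j n r) m * backboneMean (j + 1) n m)
      volume 0 R := fun m => (hcont m).intervalIntegrable _ _
  have h1 : ∫ r in (0:ℝ)..R, ∑ m ∈ range M, poi (mu j n r) m * backboneMean (j + 1) n m
      ≤ ∫ r in (0:ℝ)..R, Wp j n r := by
    apply intervalIntegral.integral_mono_on hR
    · apply Continuous.intervalIntegrable
      refine continuous_finsetSum _ fun m _ => ?_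
      exact hcont m
    · exact (continuous_Wp j n).intervalIntegrable _ _
    · intro r hr
      have hmu : 0 ≤ mu j n r := by
        have := hr.1
        unfold mu; positivity
      apply sum_le_hasSum _ _ (hasSum_Wp j n r)
      intro m _
      apply mul_nonneg (poi_nonneg hmu m)
      unfold backboneMean
      apply div_nonneg _ (Nat.cast_nonneg _)
      apply Finset.sum_nonneg
      intro F _
      split_ifs <;> positivity
  rw [intervalIntegral.integral_finsetSum (fun m _ => hint m)] at h1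
  simp only [intervalIntegral.integral_mul_const, integral_poi_mu j n _ hn] at h1
  calc ∑ m ∈ range M, backboneMean (j + 1) n m * (1 - ∑ i ∈ range (m + 1), poi (mu j n R) i)
      = D j n * ∑ m ∈ range M, (1 - ∑ i ∈ range (m + 1), poi (mu j n R) i) / D j n
          * backboneMean (j + 1) n m := by
        rw [mul_sum]
        refine sum_congr rfl fun m _ => ?_
        have := hD.ne'
        field_simp
    _ ≤ _ := mul_le_mul_of_nonneg_left h1 hD.le

theorem bbMean_nonneg (k n m : ℕ) : 0 ≤ backboneMean k n m := by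
  unfold backboneMean
  apply div_nonneg _ (Nat.cast_nonneg _)
  apply Finset.sum_nonneg
  intro F _
  split_ifs <;> positivity

theorem bbMean_le (k n m : ℕ) : backboneMean k n m ≤ n * satProb k n m := by
  classical
  unfold backboneMean satProb
  rw [← mul_div_assoc]
  apply div_le_div_of_nonneg_right _ (Nat.cast_nonneg _)
  rw [Fintype.card_subtype, ← Finset.sum_boole, mul_sum]
  refine sum_le_sum fun F _ => ?_
  by_cases h : Satisfiable F
  · simp only [h, if_true, mul_one]
    have h1 := Finset.card_le_univ (backbone F)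
    rw [Fintype.card_fin] at h1
    exact_mod_cast h1
  · simp [h]

theorem bbMean_le_n (k n m : ℕ) : backboneMean k n m ≤ n := by
  have h1 := bbMean_le k n m
  have h2 := satProb_le_one k n m
  have h3 : (0 : ℝ) ≤ n := Nat.cast_nonneg n
  nlinarith

attribute [local irreducible] Phi FzMom Eta Wp in
/-- bound of the integral of `Wp` -/
theorem integral_Wp_le {j : ℕ} (hj : 2 ≤ j) {C₀ : ℝ} (hC : 1 ≤ C₀) {n : ℕ} (hn : j + 1 ≤ n) :
    (2 * (n : ℝ)) ^ j * ∫ r in (0:ℝ)..rt j n C₀, Wp j n r
      ≤ Real.exp (C₀ * ((j + 1) * j)) * (6 * ((j + 1) * C₀) ^ 2) := by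
  obtain ⟨n, rfl⟩ : ∃ p, n = p + 1 := ⟨n - 1, by omega⟩
  have hR0 : 0 ≤ rt j (n + 1) C₀ := rt_nonneg_bd160 j (n + 1) (by linarith)
  have h1 := G_bound hj hC (A := 6 * ((j + 1) * C₀) ^ 2) (B := 2 * ((j + 1) * C₀)) rfl rfl n 0 le_rfl
  rw [mul_zero, mul_zero, add_zero] at h1
  have hc : Continuous fun r => FzMom j (Fin (n + 1)) 1 r 0 :=
    (continuous_FzMom j (Fin (n + 1)) 1).comp (by fun_prop : Continuous fun r : ℝ => (r, (0:ℝ)))
  have h2 : ∫ r in (0:ℝ)..rt j (n + 1) C₀, Wp j (n + 1) r
      ≤ ∫ r in (0:ℝ)..rt j (n + 1) C₀, Real.exp (C₀ * ((j + 1) * j)) *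
        FzMom j (Fin (n + 1)) 1 r 0 := by
    apply intervalIntegral.integral_mono_on hR0 ((continuous_Wp j (n + 1)).intervalIntegrable _ _)
      ((continuous_const.mul hc).intervalIntegrable _ _)
    intro r hr
    have h3 := Wp_le j (n + 1) hr.1
    have h4 := rt_improper_le j (n + 1) hn (c := C₀) (by linarith)
    have himp : 0 ≤ improper j (n + 1) := by
      unfold improper
      have := descFactorial_le j (n + 1)
      rw [mul_pow]
      have h5 : (0:ℝ) ≤ 2 ^ (j + 1) := by positivity
      nlinarith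
    have h5 : r * improper j (n + 1) ≤ C₀ * ((j + 1) * j) :=
      (mul_le_mul_of_nonneg_right hr.2 himp).trans h4
    have h6 : Wp j (n + 1) r = Real.exp (r * improper j (n + 1)) *
        (Real.exp (-(r * improper j (n + 1))) * Wp j (n + 1) r) := by
      rw [← mul_assoc, ← Real.exp_add, add_neg_cancel, Real.exp_zero, one_mul]
    rw [h6]
    exact mul_le_mul (Real.exp_le_exp.mpr h5) h3
      (mul_nonneg (Real.exp_pos _).le (Wp_nonneg j (n + 1) hr.1)) (Real.exp_pos _).le
  rw [intervalIntegral.integral_const_mul] at h2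
  have h3 := mul_le_mul_of_nonneg_left h2
    (show (0:ℝ) ≤ (2 * ((n + 1 : ℕ) : ℝ)) ^ j by positivity)
  refine h3.trans ?_
  have h4 := mul_le_mul_of_nonneg_left h1 (Real.exp_pos (C₀ * ((j + 1) * j))).le
  calc (2 * ((n + 1 : ℕ) : ℝ)) ^ j * (Real.exp (C₀ * ((j + 1) * j)) *
        ∫ r in (0:ℝ)..rt j (n + 1) C₀, FzMom j (Fin (n + 1)) 1 r 0)
      = Real.exp (C₀ * ((j + 1) * j)) * ((2 * ((n + 1 : ℕ) : ℝ)) ^ j *
        ∫ r in (0:ℝ)..rt j (n + 1) C₀, FzMom j (Fin (n + 1)) 1 r 0) := by ring
    _ ≤ _ := h4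

end Vale.Agent.P170.H849
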