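import Vale.Agent.P170.H849.B

/-!
# The expected backbone size, summed over the number of clauses
-/

namespace Vale.Agent.P170.H849

open Finset Filter Topology MeasureTheory Vale.Agent.P170

/-- the first part of the sum, `n` large -/
theorem sum_first_large {j : ℕ} (hj : 2 ≤ j) {n : ℕ} (hn : j + 1 ≤ n)
    (hn1 : 2 * ((j + 1) * j) + 16 ≤ n) {C₀ : ℝ} (hC : C₀ = 2 ^ (j + 4)) :
    ∑ m ∈ range (2 ^ (j + 1) * n), backboneMean (j + 1) n m
      ≤ 4 * (Real.exp (C₀ * ((j + 1) * j)) * (6 * ((j + 1) * C₀) ^ 2)) * n := by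
  have hC1 : 1 ≤ C₀ := by rw [hC]; exact one_le_pow₀ (by norm_num)
  have hn0 : (0 : ℝ) < n := by exact_mod_cast (by omega : 0 < n)
  have hR : 0 ≤ rt j n C₀ := rt_nonneg_bd160 j n (by linarith)
  have h1 := sum_bb_mul_le j n (2 ^ (j + 1) * n) hn hR
  have h2 := integral_Wp_le hj hC1 hn
  set K : ℝ := Real.exp (C₀ * ((j + 1) * j)) * (6 * ((j + 1) * C₀) ^ 2) with hK
  set L : ℝ := mu j n (rt j n C₀) with hL
  have hLge : 2 ^ (j + 3) * (n : ℝ) ≤ L := by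
    have h3 := le_mu j n hn (c := C₀) (by linarith)
    have h4 : (2 : ℝ) * ((j + 1) * j) ≤ n := by
      have : 2 * ((j + 1) * j) ≤ n := by omega
      exact_mod_cast this
    have h5 : C₀ * ((j + 1) * j) ≤ C₀ * n / 2 := by nlinarith
    have h6 : C₀ * n / 2 = 2 ^ (j + 3) * (n : ℝ) := by rw [hC]; ring
    linarith
  have hI : 0 ≤ ∫ r in (0:ℝ)..rt j n C₀, Wp j n r :=
    intervalIntegral.integral_nonneg hR fun r hr => Wp_nonneg j n hr.1
  have h3 : D j n * ∫ r in (0:ℝ)..rt j n C₀, Wp j n r ≤ 2 * n * K := by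
    calc D j n * ∫ r in (0:ℝ)..rt j n C₀, Wp j n r
        ≤ (2 * n) ^ (j + 1) * ∫ r in (0:ℝ)..rt j n C₀, Wp j n r :=
          mul_le_mul_of_nonneg_right (D_le j n) hI
      _ = 2 * n * ((2 * n) ^ j * ∫ r in (0:ℝ)..rt j n C₀, Wp j n r) := by ring
      _ ≤ 2 * n * K := mul_le_mul_of_nonneg_left h2 (by positivity)
  have h4 : ∑ m ∈ range (2 ^ (j + 1) * n), backboneMean (j + 1) n m * (1 / 2)
      ≤ ∑ m ∈ range (2 ^ (j + 1) * n), backboneMean (j + 1) n m *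
        (1 - ∑ i ∈ range (m + 1), poi L i) := by
    refine sum_le_sum fun m hm => mul_le_mul_of_nonneg_left ?_ (bbMean_nonneg _ _ _)
    rw [mem_range] at hm
    have hm1 : ((m + 1 : ℕ) : ℝ) ≤ 2 ^ (j + 1) * n := by exact_mod_cast hm
    have hp : (2 : ℝ) ^ (j + 3) = 4 * 2 ^ (j + 1) := by ring
    have hmL : 4 * ((m + 1 : ℕ) : ℝ) ≤ L := by
      rw [hp] at hLge
      linarith
    have hLpos : 8 ≤ L := by
      have h5 : (1 : ℝ) ≤ 2 ^ (j + 3) := one_le_pow₀ (by norm_num)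
      have h6 : (8 : ℝ) ≤ n := by exact_mod_cast (by omega : 8 ≤ n)
      nlinarith
    have h5 := w_poi_lower (μ := L) (by linarith) (m + 1) (by linarith)
    have h6 : L / (L - ((m + 1 : ℕ) : ℝ)) ^ 2 ≤ 1 / 2 := by
      have h7 : 3 / 4 * L ≤ L - ((m + 1 : ℕ) : ℝ) := by linarith
      have h8 : (3 / 4 * L) ^ 2 ≤ (L - ((m + 1 : ℕ) : ℝ)) ^ 2 :=
        pow_le_pow_left₀ (by linarith) h7 2
      have h9 : 0 < (3 / 4 * L) ^ 2 := by positivity
      rw [div_le_div_iff₀ (by linarith) (by norm_num)]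
      nlinarith
    linarith
  rw [← sum_mul] at h4
  have h5 := h4.trans (h1.trans h3)
  nlinarith

theorem q_facts (j : ℕ) : (2 : ℝ) * (1 - 1 / 2 ^ (j + 1)) ^ (2 ^ (j + 1)) ≤ 1 := by
  have hp : (0 : ℝ) < 2 ^ (j + 1) := by positivity
  have h3 : (1 - 1 / 2 ^ (j + 1) : ℝ) ≤ Real.exp (-(1 / 2 ^ (j + 1))) := by
    have := Real.add_one_le_exp (-(1 / 2 ^ (j + 1) : ℝ))
    linarith
  have h4 : (0 : ℝ) ≤ 1 - 1 / 2 ^ (j + 1) := by
    have : (1 : ℝ) / 2 ^ (j + 1) ≤ 1 := by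
      rw [div_le_one hp]
      exact one_le_pow₀ (by norm_num)
    linarith
  have h5 : (1 - 1 / 2 ^ (j + 1) : ℝ) ^ (2 ^ (j + 1)) ≤ Real.exp (-1) := by
    calc (1 - 1 / 2 ^ (j + 1) : ℝ) ^ (2 ^ (j + 1))
        ≤ (Real.exp (-(1 / 2 ^ (j + 1)))) ^ (2 ^ (j + 1)) := pow_le_pow_left₀ h4 h3 _
      _ = Real.exp (-1) := by
          rw [← Real.exp_nat_mul]
          congr 1
          push_cast
          field_simp
  have h6 : Real.exp (-1) ≤ 1 / 2 := by
    rw [Real.exp_neg, inv_eq_one_div]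
    apply one_div_le_one_div_of_le (by norm_num)
    have := Real.add_one_le_exp (1 : ℝ)
    linarith
  linarith

/-- the tail of the sum -/
theorem sum_tail (j n M : ℕ) (hn : j + 1 ≤ n) :
    ∑ i ∈ range M, backboneMean (j + 1) n (2 ^ (j + 1) * n + i) ≤ 2 ^ (j + 1) * n := by
  have hp : (0 : ℝ) < 2 ^ (j + 1) := by positivity
  have hn0 : (0 : ℝ) ≤ n := Nat.cast_nonneg n
  obtain ⟨q, hq⟩ : ∃ q : ℝ, q = 1 - 1 / 2 ^ (j + 1) := ⟨_, rfl⟩
  have hq0 : 0 ≤ q := by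
    have : (1 : ℝ) / 2 ^ (j + 1) ≤ 1 := by
      rw [div_le_one hp]
      exact one_le_pow₀ (by norm_num)
    rw [hq]; linarith
  have hq1 : q < 1 := by
    have : 0 < (1 : ℝ) / 2 ^ (j + 1) := by positivity
    rw [hq]; linarith
  have h1 : ∀ i, satProb (j + 1) n (2 ^ (j + 1) * n + i) ≤ q ^ i := by
    intro i
    refine (w_first_moment j n _ hn).trans ?_
    rw [← hq, pow_add, pow_mul, ← mul_assoc, ← mul_pow]
    have h2 := q_facts j
    rw [← hq] at h2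
    have h3 : (2 * q ^ 2 ^ (j + 1)) ^ n ≤ 1 := pow_le_one₀ (by positivity) h2
    have h4 : 0 ≤ q ^ i := by positivity
    nlinarith
  have h2 : ∑ i ∈ range M, q ^ i ≤ 2 ^ (j + 1) := by
    have h3 := (summable_geometric_of_lt_one hq0 hq1).sum_le_tsum (range M)
      (fun i _ => by positivity)
    rw [tsum_geometric_of_lt_one hq0 hq1] at h3
    refine h3.trans (le_of_eq ?_)
    rw [hq]
    simp
  calc ∑ i ∈ range M, backboneMean (j + 1) n (2 ^ (j + 1) * n + i)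
      ≤ ∑ i ∈ range M, (n : ℝ) * q ^ i := by
        refine sum_le_sum fun i _ => (bbMean_le _ _ _).trans ?_
        exact mul_le_mul_of_nonneg_left (h1 i) hn0
    _ = n * ∑ i ∈ range M, q ^ i := by rw [mul_sum]
    _ ≤ n * 2 ^ (j + 1) := mul_le_mul_of_nonneg_left h2 hn0
    _ = 2 ^ (j + 1) * n := mul_comm _ _

/-- the expected backbone size, summed over all numbers of clauses, is `O(n)` -/
theorem sum_bbMean_le {j : ℕ} (hj : 2 ≤ j) :
    ∃ B : ℝ, 0 < B ∧ ∀ n M : ℕ, j + 1 ≤ n →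
      ∑ m ∈ range M, backboneMean (j + 1) n m ≤ B * n := by
  obtain ⟨C₀, hC⟩ : ∃ C₀ : ℝ, C₀ = 2 ^ (j + 4) := ⟨_, rfl⟩
  obtain ⟨K, hK⟩ : ∃ K : ℝ, K = Real.exp (C₀ * ((j + 1) * j)) * (6 * ((j + 1) * C₀) ^ 2) :=
    ⟨_, rfl⟩
  have hK0 : 0 ≤ K := by rw [hK]; positivity
  obtain ⟨N, hN⟩ : ∃ N : ℕ, N = 2 * ((j + 1) * j) + 16 := ⟨_, rfl⟩
  refine ⟨4 * K + 2 ^ (j + 1) * N + 2 ^ (j + 1), by positivity, fun n M hn => ?_⟩
  have hn0 : (0 : ℝ) ≤ n := Nat.cast_nonneg n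
  have h1 : ∑ m ∈ range (2 ^ (j + 1) * n), backboneMean (j + 1) n m
      ≤ (4 * K + 2 ^ (j + 1) * N) * n := by
    rcases le_or_gt N n with h | h
    · have h2 := sum_first_large hj hn (by omega) hC
      rw [← hK] at h2
      have h3 : 0 ≤ 2 ^ (j + 1) * (N : ℝ) * n := by positivity
      nlinarith
    · have h2 : ∑ m ∈ range (2 ^ (j + 1) * n), backboneMean (j + 1) n m
          ≤ ∑ m ∈ range (2 ^ (j + 1) * n), (n : ℝ) := sum_le_sum fun m _ => bbMean_le_n _ _ _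
      rw [sum_const, card_range, nsmul_eq_mul] at h2
      push_cast at h2
      have h3 : (n : ℝ) ≤ N := by exact_mod_cast h.le
      have h4 : 2 ^ (j + 1) * (n : ℝ) * n ≤ 2 ^ (j + 1) * (N : ℝ) * n := by
        apply mul_le_mul_of_nonneg_right _ hn0
        exact mul_le_mul_of_nonneg_left h3 (by positivity)
      have h5 : 0 ≤ 4 * K * n := by positivity
      linarith
  have h2 := sum_tail j n M hn
  have h3 : ∑ m ∈ range M, backboneMean (j + 1) n m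
      ≤ ∑ m ∈ range (2 ^ (j + 1) * n + M), backboneMean (j + 1) n m :=
    sum_le_sum_of_subset_of_nonneg (by
      intro i hi
      rw [mem_range] at hi ⊢
      omega) fun m _ _ => bbMean_nonneg _ _ _
  rw [sum_range_add] at h3
  linarith

end Vale.Agent.P170.H849
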