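import Vale.Agent.P170.H243.Rates

/-!
# The backbone of a random `k`-SAT formula
-/

namespace Vale.Agent.P170.H849

open Finset Vale.Agent.P170

/-- the assignment `a` satisfies every clause of the sequence `F` -/
def Sat {k n m : ℕ} (a : Fin n → Bool) (F : Fin m → PClause k n) : Prop :=
  ∀ i, ∃ l ∈ (F i).1, a l.1 = l.2

open Classical in
/-- the backbone of `F`: the variables with the same value in all satisfying assignments -/
noncomputable def backbone {k n m : ℕ} (F : Fin m → PClause k n) : Finset (Fin n) :=
  univ.filter fun x => ∀ a b : Fin n → Bool, Sat a F → Sat b F → a x = b x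

open Classical in
/-- the expected number of backbone variables of `F_{n,m}`, counted as `0` if `F_{n,m}` is
unsatisfiable -/
noncomputable def backboneMean (k n m : ℕ) : ℝ :=
  (∑ F : Fin m → PClause k n, if Satisfiable F then ((backbone F).card : ℝ) else 0) /
    (Fintype.card (Fin m → PClause k n) : ℝ)

/-- the first `m` of `M` clauses -/
def first {k n M : ℕ} (m : ℕ) (h : m ≤ M) (F : Fin M → PClause k n) : Fin m → PClause k n :=
  fun i => F (Fin.castLE h i)

/-- `M` clauses are added one after another; at some step the formula changes from satisfiable to
unsatisfiable, and just before this step it has less than `s` backbone variables -/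
def SmallLastBackbone {k n M : ℕ} (s : ℝ) (F : Fin M → PClause k n) : Prop :=
  ∃ m, ∃ h : m < M, Satisfiable (first m h.le F) ∧
    ((backbone (first m h.le F)).card : ℝ) < s ∧ ¬ Satisfiable (first (m + 1) h F)

open Classical in
/-- the probability of the event `SmallLastBackbone s` for `M` independent uniform clauses -/
noncomputable def smallLastProb (k n M : ℕ) (s : ℝ) : ℝ :=
  (Fintype.card {F : Fin M → PClause k n // SmallLastBackbone s F} : ℝ) /
    (Fintype.card (Fin M → PClause k n) : ℝ)

end Vale.Agent.P170.H849
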