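import Vale.Agent.P170.H849.C

/-!
# The backbone below the threshold and at the last satisfiable formula
-/

namespace Vale.Agent.P170.H849

open Finset Filter Topology MeasureTheory Vale.Agent.P170

/-- mean over all sequences of `m` clauses -/
noncomputable def mean {k n : ℕ} (m : ℕ) (g : (Fin m → PClause k n) → ℝ) : ℝ :=
  (∑ F : Fin m → PClause k n, g F) / (Fintype.card (Fin m → PClause k n) : ℝ)

theorem mean_mono {k n m : ℕ} {g g' : (Fin m → PClause k n) → ℝ} (h : ∀ F, g F ≤ g' F) :
    mean m g ≤ mean m g' :=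
  div_le_div_of_nonneg_right (sum_le_sum fun F _ => h F) (Nat.cast_nonneg _)

theorem mean_add {k n m : ℕ} (g g' : (Fin m → PClause k n) → ℝ) :
    mean m (fun F => g F + g' F) = mean m g + mean m g' := by
  unfold mean
  rw [sum_add_distrib, add_div]

theorem mean_sub {k n m : ℕ} (g g' : (Fin m → PClause k n) → ℝ) :
    mean m (fun F => g F - g' F) = mean m g - mean m g' := by
  unfold mean
  rw [sum_sub_distrib, sub_div]

theorem mean_mul {k n m : ℕ} (c : ℝ) (g : (Fin m → PClause k n) → ℝ) :
    mean m (fun F => c * g F) = c * mean m g := by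
  unfold mean
  rw [← mul_sum, mul_div_assoc]

/-- restriction to the first `m` clauses does not change the mean -/
theorem mean_first {k n m M : ℕ} (hP : 0 < Fintype.card (PClause k n)) (h : m ≤ M)
    (g : (Fin m → PClause k n) → ℝ) :
    mean M (fun F => g (first m h F)) = mean m g := by
  induction M, h using Nat.le_induction with
  | base => rfl
  | succ M hM ih =>
    rw [← ih]
    unfold mean
    have h1 : ∑ F : Fin (M + 1) → PClause k n, g (first m (hM.trans (Nat.le_succ M)) F)
        = ∑ z : PClause k n × (Fin M → PClause k n), g (first m hM z.2) := by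
      symm
      apply Fintype.sum_equiv (Fin.snocEquiv (fun _ : Fin (M + 1) => PClause k n))
      rintro ⟨C, a⟩
      congr 1
      funext i
      show a (Fin.castLE hM i) = (Fin.snoc a C : Fin (M + 1) → PClause k n)
        (Fin.castSucc (Fin.castLE hM i))
      rw [Fin.snoc_castSucc]
    have h3 : ∑ z : PClause k n × (Fin M → PClause k n), g (first m hM z.2)
        = (Fintype.card (PClause k n) : ℝ) * ∑ F : Fin M → PClause k n, g (first m hM F) := by
      rw [Fintype.sum_prod_type]
      show ∑ _x : PClause k n, ∑ y : Fin M → PClause k n, g (first m hM y) = _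
      rw [sum_const, card_univ, nsmul_eq_mul]
    have h4 : (Fintype.card (Fin (M + 1) → PClause k n) : ℝ)
        = (Fintype.card (PClause k n) : ℝ) * (Fintype.card (Fin M → PClause k n) : ℝ) := by
      rw [Fintype.card_fun, Fintype.card_fun, Fintype.card_fin, Fintype.card_fin]
      push_cast
      ring
    rw [h1, h3, h4]
    have h5 : (Fintype.card (PClause k n) : ℝ) ≠ 0 := by exact_mod_cast hP.ne'
    rw [mul_div_mul_left _ _ h5]

open Classical in
theorem satProb_eq_mean (k n m : ℕ) :
    satProb k n m = mean m (fun F : Fin m → PClause k n => if Satisfiable F then 1 else 0) := by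
  unfold satProb mean
  rw [Fintype.card_subtype, ← Finset.sum_boole]

theorem sat_first {k n m M : ℕ} (h : m ≤ M) {F : Fin M → PClause k n} {a : Fin n → Bool}
    (ha : Sat a F) : Sat a (first m h F) := fun i => ha (Fin.castLE h i)

theorem satisfiable_first {k n m M : ℕ} (h : m ≤ M) {F : Fin M → PClause k n}
    (hF : Satisfiable F) : Satisfiable (first m h F) := by
  obtain ⟨a, ha⟩ := hF
  exact ⟨a, sat_first h ha⟩

theorem mem_backbone {k n m : ℕ} {F : Fin m → PClause k n} {x : Fin n} :
    x ∈ backbone F ↔ ∀ a b : Fin n → Bool, Sat a F → Sat b F → a x = b x := by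
  simp only [backbone, mem_filter, mem_univ, true_and]

theorem backbone_first {k n m M : ℕ} (h : m ≤ M) (F : Fin M → PClause k n) :
    backbone (first m h F) ⊆ backbone F := by
  intro x hx
  rw [mem_backbone] at hx ⊢
  exact fun a b ha hb => hx a b (sat_first h ha) (sat_first h hb)

theorem card_P_pos {k n : ℕ} (hn : k ≤ n) : 0 < Fintype.card (PClause k n) := by
  rw [card_pclause]
  have := Nat.choose_pos hn
  positivity

/-- comparison of the backbones for two numbers of clauses -/
theorem bbMean_compare {k n m M : ℕ} (hn : k ≤ n) (h : m ≤ M) :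
    backboneMean k n m ≤ backboneMean k n M + n * (satProb k n m - satProb k n M) := by
  classical
  have hP := card_P_pos hn
  have h1 : backboneMean k n m = mean M (fun F : Fin M → PClause k n =>
      if Satisfiable (first m h F) then ((backbone (first m h F)).card : ℝ) else 0) :=
    (mean_first hP h (fun F => if Satisfiable F then ((backbone F).card : ℝ) else 0)).symm
  have h2 : satProb k n m = mean M (fun F : Fin M → PClause k n =>
      if Satisfiable (first m h F) then 1 else 0) := by
    rw [satProb_eq_mean, ← mean_first hP h]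
  have h3 : backboneMean k n M = mean M (fun F : Fin M → PClause k n =>
      if Satisfiable F then ((backbone F).card : ℝ) else 0) := rfl
  rw [h1, h2, satProb_eq_mean k n M, h3, ← mean_sub, ← mean_mul, ← mean_add]
  refine mean_mono fun F => ?_
  by_cases hF : Satisfiable F
  · have hF' := satisfiable_first h hF
    simp only [hF, hF', if_true, sub_self, mul_zero, add_zero]
    exact_mod_cast card_le_card (backbone_first h F)
  · by_cases hF' : Satisfiable (first m h F)
    · simp only [hF, hF', if_true, if_false, sub_zero, mul_one, zero_add]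
      have h4 := Finset.card_le_univ (backbone (first m h F))
      rw [Fintype.card_fin] at h4
      exact_mod_cast h4
    · simp [hF, hF']

/-- below the threshold -/
theorem bbMean_below {k : ℕ} (hk : 1 ≤ k) {α A B : ℝ} (hB : 0 ≤ B)
    (hthr : IsLimitingThreshold k α)
    (hw : ∀ n m m' : ℕ, k ≤ n → m ≤ m' →
      ((m' : ℝ) - m) * ((1 - satProb k n m) * satProb k n m') ≤ A * Real.sqrt n)
    (hsum : ∀ n M : ℕ, k ≤ n → ∑ m ∈ range M, backboneMean k n m ≤ B * n)
    {c : ℝ} (hc0 : 0 ≤ c) (hc : c < α) :
    ∃ B' : ℝ, ∀ n : ℕ, k ≤ n → backboneMean k n ⌊c * n⌋₊ ≤ B' * Real.sqrt n := by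
  obtain ⟨d, hd⟩ : ∃ d : ℝ, d = (c + α) / 2 := ⟨_, rfl⟩
  have hcd : c < d := by rw [hd]; linarith
  have hdα : d < α := by rw [hd]; linarith
  obtain ⟨E, hE⟩ := w_rate_below hk hthr hw (hc0.trans hcd.le) hdα
  obtain ⟨N, hN⟩ := exists_nat_ge (2 / (d - c))
  have hdc : 0 < d - c := by linarith
  refine ⟨2 * B / (d - c) + |E| + N, fun n hn => ?_⟩
  have hn1 : (1 : ℝ) ≤ n := by exact_mod_cast (by omega : 1 ≤ n)
  have hr1 : 1 ≤ Real.sqrt n := by
    rw [← Real.sqrt_one]
    exact Real.sqrt_le_sqrt hn1
  have hrr : Real.sqrt n * Real.sqrt n = n := Real.mul_self_sqrt (by linarith)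
  have hBd : 0 ≤ 2 * B / (d - c) := by positivity
  rcases lt_or_ge n N with hlt | hge
  · have h1 := bbMean_le_n k n ⌊c * n⌋₊
    have h2 : (n : ℝ) ≤ N := by exact_mod_cast hlt.le
    have h3 : (N : ℝ) ≤ (2 * B / (d - c) + |E| + N) * Real.sqrt n := by
      have h4 : (0 : ℝ) ≤ N := Nat.cast_nonneg N
      have h5 : 0 ≤ |E| := abs_nonneg E
      nlinarith
    linarith
  · obtain ⟨m, hm⟩ : ∃ m : ℕ, m = ⌊c * n⌋₊ := ⟨_, rfl⟩
    obtain ⟨M, hM⟩ : ∃ M : ℕ, M = ⌊d * n⌋₊ := ⟨_, rfl⟩
    have hmM : m ≤ M := by rw [hm, hM]; exact Nat.floor_le_floor (by nlinarith)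
    have h3 : (2 : ℝ) ≤ (d - c) * n := by
      have h4 : 2 / (d - c) ≤ n := hN.trans (by exact_mod_cast hge)
      rw [div_le_iff₀ hdc] at h4
      linarith
    have hgap : (d - c) * n / 2 ≤ (M : ℝ) - m := by
      have h5 := w_floor_ge d n
      have h6 : (⌊c * n⌋₊ : ℝ) ≤ c * n := Nat.floor_le (by positivity)
      rw [hM, hm]
      linarith
    have h4 : ∀ i ∈ Ico m M, backboneMean k n m ≤ backboneMean k n i + n * (1 - satProb k n M) := by
      intro i hi
      rw [mem_Ico] at hi
      have h5 := bbMean_compare hn hi.1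
      have h6 := satProb_le_one k n m
      have h7 : satProb k n M ≤ satProb k n i := satProb_antitone k n hi.2.le
      nlinarith
    have h5 := sum_le_sum h4
    rw [sum_const, Nat.card_Ico, nsmul_eq_mul, sum_add_distrib, sum_const, Nat.card_Ico,
      nsmul_eq_mul, Nat.cast_sub hmM] at h5
    have h6 : ∑ i ∈ Ico m M, backboneMean k n i ≤ B * n := by
      refine le_trans ?_ (hsum n M hn)
      refine sum_le_sum_of_subset_of_nonneg ?_ fun i _ _ => bbMean_nonneg _ _ _
      intro i hi
      rw [mem_Ico] at hi
      exact mem_range.mpr hi.2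
    have h7 := hE n hn
    rw [← hM] at h7
    have h8 : n * (1 - satProb k n M) ≤ |E| * Real.sqrt n := by
      calc (n : ℝ) * (1 - satProb k n M)
          = ((1 - satProb k n M) * Real.sqrt n) * Real.sqrt n := by
            rw [mul_assoc, hrr, mul_comm]
        _ ≤ E * Real.sqrt n := mul_le_mul_of_nonneg_right h7 (by linarith)
        _ ≤ |E| * Real.sqrt n := mul_le_mul_of_nonneg_right (le_abs_self E) (by linarith)
    have hg0 : 0 < (M : ℝ) - m := by nlinarith
    have h9 : backboneMean k n m ≤ 2 * B / (d - c) + |E| * Real.sqrt n := by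
      have h10 : ((M : ℝ) - m) * backboneMean k n m
          ≤ ((M : ℝ) - m) * (2 * B / (d - c) + |E| * Real.sqrt n) := by
        have h11 : B * n ≤ ((M : ℝ) - m) * (2 * B / (d - c)) := by
          have h12 : (d - c) * n / 2 * (2 * B / (d - c)) = B * n := by field_simp
          rw [← h12]
          exact mul_le_mul_of_nonneg_right hgap hBd
        have h13 : ((M : ℝ) - m) * (n * (1 - satProb k n M))
            ≤ ((M : ℝ) - m) * (|E| * Real.sqrt n) := mul_le_mul_of_nonneg_left h8 hg0.le
        linarith
      exact le_of_mul_le_mul_left h10 hg0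
    rw [← hm]
    have h10 : (0 : ℝ) ≤ N := Nat.cast_nonneg N
    nlinarith

end Vale.Agent.P170.H849
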