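import Vale.Agent.P170.H849.E

/-!
# The backbone of the last satisfiable formula
-/

namespace Vale.Agent.P170.H849

open Finset Filter Topology MeasureTheory Vale.Agent.P170

/-- add a clause at the end -/
def snoc {k n m : ℕ} (a : Fin m → PClause k n) (C : PClause k n) : Fin (m + 1) → PClause k n :=
  (Fin.snoc a C : Fin (m + 1) → PClause k n)

theorem first_snoc {k n m : ℕ} (a : Fin m → PClause k n) (C : PClause k n) :
    first m (Nat.le_succ m) (snoc a C) = a := by
  funext i
  show (Fin.snoc a C : Fin (m + 1) → PClause k n) (Fin.castSucc i) = a i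
  rw [Fin.snoc_castSucc]

theorem satisfiable_snoc {k n m : ℕ} {a : Fin m → PClause k n} {C : PClause k n}
    {v : Fin n → Bool} (hv : Sat v a) (hC : ∃ l ∈ C.1, v l.1 = l.2) : Satisfiable (snoc a C) := by
  refine ⟨v, fun i => ?_⟩
  refine Fin.lastCases ?_ (fun i => ?_) i
  · show ∃ l ∈ ((Fin.snoc a C : Fin (m + 1) → PClause k n) (Fin.last m)).1, v l.1 = l.2
    rw [Fin.snoc_last]
    exact hC
  · show ∃ l ∈ ((Fin.snoc a C : Fin (m + 1) → PClause k n) (Fin.castSucc i)).1, v l.1 = l.2
    rw [Fin.snoc_castSucc]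
    exact hv i

open Classical in
/-- the number of clauses which make the formula unsatisfiable -/
theorem card_killing {k n m : ℕ} {a : Fin m → PClause k n} (ha : Satisfiable a) :
    (univ.filter fun C : PClause k n => ¬ Satisfiable (snoc a C)).card
      ≤ (backbone a).card.choose k := by
  obtain ⟨v, hv⟩ := ha
  have hv : Sat v a := hv
  rw [← card_image_of_injective (backbone a) (f := fun x => (x, !(v x)))
    (fun x y h => congrArg Prod.fst h), ← card_powersetCard]
  refine card_le_card_of_injOn (fun C => C.1) ?_ (fun C _ C' _ h => Subtype.ext h)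
  intro C hC
  have hC := (mem_filter.mp hC).2
  have hkill : ∀ w : Fin n → Bool, Sat w a → ∀ l ∈ C.1, w l.1 ≠ l.2 := by
    intro w hw l hl h
    exact hC (satisfiable_snoc hw ⟨l, hl, h⟩)
  rw [mem_coe, mem_powersetCard]
  refine ⟨fun l hl => ?_, C.2.1⟩
  rw [mem_image]
  refine ⟨l.1, ?_, ?_⟩
  · rw [mem_backbone]
    intro w w' hw hw'
    have h1 := hkill w hw l hl
    have h2 := hkill w' hw' l hl
    cases h3 : w l.1 <;> cases h4 : w' l.1 <;> cases h5 : l.2 <;> simp_all
  · have h1 := hkill v hv l hl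
    refine Prod.ext rfl ?_
    show (!(v l.1)) = l.2
    cases h3 : v l.1 <;> cases h5 : l.2 <;> simp_all

/-- the proportion of killing clauses, for a backbone of less than `δ n` variables -/
theorem killing_ratio {j n f : ℕ} (hn : j + 1 ≤ n) (hf : f ≤ n) {δ : ℝ}
    (hδ : (f : ℝ) < δ * n) :
    (f.choose (j + 1) : ℝ) / (Fintype.card (PClause (j + 1) n) : ℝ) ≤ δ ^ j * (f / n) := by
  have hn0 : (0 : ℝ) < n := by exact_mod_cast (by omega : 0 < n)
  have hc : (0 : ℝ) < n.choose (j + 1) := by exact_mod_cast Nat.choose_pos hn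
  have h1 : (f.choose (j + 1) : ℝ) * (n : ℝ) ^ (j + 1) ≤ n.choose (j + 1) * (f : ℝ) ^ (j + 1) := by
    exact_mod_cast choose_mul_pow_le (j + 1) hf
  have h2 : (Fintype.card (PClause (j + 1) n) : ℝ) = n.choose (j + 1) * 2 ^ (j + 1) := by
    rw [card_pclause]; push_cast; ring
  have h3 : (f.choose (j + 1) : ℝ) / (Fintype.card (PClause (j + 1) n) : ℝ)
      ≤ f.choose (j + 1) / n.choose (j + 1) := by
    rw [h2]
    apply div_le_div_of_nonneg_left (Nat.cast_nonneg _) hc
    have : (1 : ℝ) ≤ 2 ^ (j + 1) := one_le_pow₀ (by norm_num)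
    nlinarith
  have h4 : (f.choose (j + 1) : ℝ) / n.choose (j + 1) ≤ ((f : ℝ) / n) ^ (j + 1) := by
    rw [div_pow, div_le_div_iff₀ hc (by positivity)]
    linarith
  have h5 : (f : ℝ) / n ≤ δ := by
    rw [div_le_iff₀ hn0]
    exact hδ.le
  have h6 : 0 ≤ (f : ℝ) / n := by positivity
  have h7 : ((f : ℝ) / n) ^ (j + 1) ≤ δ ^ j * (f / n) := by
    rw [pow_succ]
    exact mul_le_mul_of_nonneg_right (pow_le_pow_left₀ h6 h5 j) h6
  linarith

open Classical in
/-- one step -/
theorem step_prob {j n m : ℕ} (hn : j + 1 ≤ n) {δ : ℝ} (hδ : 0 ≤ δ) :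
    mean (m + 1) (fun F : Fin (m + 1) → PClause (j + 1) n =>
        if Satisfiable (first m (Nat.le_succ m) F) ∧
          ((backbone (first m (Nat.le_succ m) F)).card : ℝ) < δ * n ∧ ¬ Satisfiable F
        then (1 : ℝ) else 0)
      ≤ δ ^ j / n * backboneMean (j + 1) n m := by
  have hP := card_P_pos hn
  have hPr : (0 : ℝ) < Fintype.card (PClause (j + 1) n) := by exact_mod_cast hP
  have hn0 : (0 : ℝ) < n := by exact_mod_cast (by omega : 0 < n)
  unfold mean backboneMean
  have h1 : ∑ F : Fin (m + 1) → PClause (j + 1) n,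
        (if Satisfiable (first m (Nat.le_succ m) F) ∧
          ((backbone (first m (Nat.le_succ m) F)).card : ℝ) < δ * n ∧ ¬ Satisfiable F
        then (1 : ℝ) else 0)
      = ∑ z : PClause (j + 1) n × (Fin m → PClause (j + 1) n),
        (if Satisfiable z.2 ∧ ((backbone z.2).card : ℝ) < δ * n ∧ ¬ Satisfiable (snoc z.2 z.1)
        then (1 : ℝ) else 0) := by
    symm
    apply Fintype.sum_equiv (Fin.snocEquiv (fun _ : Fin (m + 1) => PClause (j + 1) n))
    rintro ⟨C, a⟩
    have h2 : (Fin.snocEquiv (fun _ : Fin (m + 1) => PClause (j + 1) n)) (C, a) = snoc a C := rfl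
    rw [h2, first_snoc]
  have h4 : (Fintype.card (Fin (m + 1) → PClause (j + 1) n) : ℝ)
      = (Fintype.card (Fin m → PClause (j + 1) n) : ℝ) * (Fintype.card (PClause (j + 1) n) : ℝ) := by
    rw [Fintype.card_fun, Fintype.card_fun, Fintype.card_fin, Fintype.card_fin]
    push_cast
    ring
  have h5 : (0 : ℝ) < (Fintype.card (Fin m → PClause (j + 1) n) : ℝ) := by
    rw [Fintype.card_fun]
    push_cast
    positivity
  rw [h1, Fintype.sum_prod_type_right, h4, ← mul_div_assoc, div_le_div_iff₀ (by positivity) h5]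
  have h6 : ∀ a : Fin m → PClause (j + 1) n,
      ∑ C : PClause (j + 1) n,
        (if Satisfiable a ∧ ((backbone a).card : ℝ) < δ * n ∧ ¬ Satisfiable (snoc a C)
        then (1 : ℝ) else 0)
      ≤ (Fintype.card (PClause (j + 1) n) : ℝ) *
        (δ ^ j / n * if Satisfiable a then ((backbone a).card : ℝ) else 0) := by
    intro a
    by_cases ha : Satisfiable a
    · by_cases hb : ((backbone a).card : ℝ) < δ * n
      · simp only [ha, hb, true_and, if_true]
        rw [Finset.sum_boole]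
        have h7 := card_killing ha
        have h8 : ((univ.filter fun C : PClause (j + 1) n => ¬ Satisfiable (snoc a C)).card : ℝ)
            ≤ ((backbone a).card.choose (j + 1) : ℝ) := by exact_mod_cast h7
        have h9 := Finset.card_le_univ (backbone a)
        rw [Fintype.card_fin] at h9
        have h10 := killing_ratio hn h9 hb
        rw [div_le_iff₀ hPr] at h10
        refine h8.trans (h10.trans (le_of_eq ?_))
        ring
      · simp only [ha, hb, true_and, false_and, if_false, if_true, sum_const_zero]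
        positivity
    · simp [ha]
  have h7 := sum_le_sum (fun a (_ : a ∈ (univ : Finset (Fin m → PClause (j + 1) n))) => h6 a)
  rw [← mul_sum, ← mul_sum] at h7
  have h8 := mul_le_mul_of_nonneg_right h7 h5.le
  refine h8.trans (le_of_eq ?_)
  ring

/-- the whole process -/
theorem smallLast_le {j n M : ℕ} (hn : j + 1 ≤ n) {δ B : ℝ} (hδ : 0 ≤ δ)
    (hsum : ∑ m ∈ range M, backboneMean (j + 1) n m ≤ B * n) :
    smallLastProb (j + 1) n M (δ * n) ≤ B * δ ^ j := by
  classical
  have hP := card_P_pos hn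
  have hn0 : (0 : ℝ) < n := by exact_mod_cast (by omega : 0 < n)
  obtain ⟨e, he⟩ : ∃ e : (m : Fin M) → (Fin (m.1 + 1) → PClause (j + 1) n) → ℝ, e = fun m F =>
      if Satisfiable (first m.1 (Nat.le_succ m.1) F) ∧
        ((backbone (first m.1 (Nat.le_succ m.1) F)).card : ℝ) < δ * n ∧ ¬ Satisfiable F
      then (1 : ℝ) else 0 := ⟨_, rfl⟩
  have he0 : ∀ m F, 0 ≤ e m F := by
    intro m F
    rw [he]
    show (0 : ℝ) ≤ if _ then (1 : ℝ) else 0
    split_ifs <;> norm_num
  have h1 : smallLastProb (j + 1) n M (δ * n)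
      ≤ mean M (fun F : Fin M → PClause (j + 1) n => ∑ m : Fin M, e m (first (m.1 + 1) m.2 F)) := by
    unfold smallLastProb mean
    apply div_le_div_of_nonneg_right _ (Nat.cast_nonneg _)
    rw [Fintype.card_subtype, ← Finset.sum_boole]
    refine sum_le_sum fun F _ => ?_
    split_ifs with h
    · obtain ⟨m, hm, h2, h3, h4⟩ := h
      have h5 : e ⟨m, hm⟩ (first (m + 1) hm F) = 1 := by
        rw [he]
        exact if_pos ⟨h2, h3, h4⟩
      rw [← h5]
      exact single_le_sum (f := fun m : Fin M => e m (first (m.1 + 1) m.2 F))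
        (fun m _ => he0 m _) (mem_univ (⟨m, hm⟩ : Fin M))
    · exact sum_nonneg fun m _ => he0 m _
  have h2 : mean M (fun F : Fin M → PClause (j + 1) n => ∑ m : Fin M, e m (first (m.1 + 1) m.2 F))
      = ∑ m : Fin M, mean (m.1 + 1) (e m) := by
    have h3 : ∀ m : Fin M, mean (m.1 + 1) (e m)
        = mean M (fun F => e m (first (m.1 + 1) m.2 F)) :=
      fun m => (mean_first hP m.2 (e m)).symm
    simp only [h3]
    unfold mean
    rw [sum_comm, sum_div]
  have h3 : ∑ m : Fin M, mean (m.1 + 1) (e m)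
      ≤ ∑ m : Fin M, δ ^ j / n * backboneMean (j + 1) n m.1 := by
    refine sum_le_sum fun m _ => ?_
    have := step_prob (m := m.1) hn hδ
    rw [he]
    exact this
  rw [← mul_sum, Fin.sum_univ_eq_sum_range (fun m => backboneMean (j + 1) n m)] at h3
  rw [h2] at h1
  refine h1.trans (h3.trans ?_)
  have h4 : 0 ≤ δ ^ j / (n : ℝ) := by positivity
  refine (mul_le_mul_of_nonneg_left hsum h4).trans (le_of_eq ?_)
  field_simp

/-- the whole theorem -/
theorem main (k : ℕ) (hk : 3 ≤ k) :
    ∃ α B : ℝ, 0 < B ∧ IsLimitingThreshold k α ∧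
      (∀ n M : ℕ, k ≤ n → ∑ m ∈ range M, backboneMean k n m ≤ B * n) ∧
      (∀ c : ℝ, 0 ≤ c → c < α → ∃ B' : ℝ, ∀ n : ℕ, k ≤ n →
        backboneMean k n ⌊c * n⌋₊ ≤ B' * Real.sqrt n) ∧
      (∀ (n M : ℕ) (δ : ℝ), k ≤ n → 0 ≤ δ → smallLastProb k n M (δ * n) ≤ B * δ ^ (k - 1)) := by
  obtain ⟨α, A, -, hthr, hwin, -⟩ := w_main k hk
  obtain ⟨j, rfl⟩ : ∃ j, k = j + 1 := ⟨k - 1, by omega⟩
  obtain ⟨B, hB, hsum⟩ := sum_bbMean_le (j := j) (by omega)
  refine ⟨α, B, hB, hthr, fun n M hn => hsum n M hn, fun c hc0 hc => ?_, fun n M δ hn hδ => ?_⟩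
  · exact bbMean_below (by omega) hB.le hthr hwin (fun n M hn => hsum n M hn) hc0 hc
  · exact smallLast_le hn hδ (hsum n M hn)

end Vale.Agent.P170.H849
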